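import Mathlib.LinearAlgebra.Matrix.SpecialLinearGroup
import Mathlib.LinearAlgebra.Matrix.Trace
import Mathlib.Tactic

set_option linter.all false

/-!
The group `SL(2, 8)`, with a code in `0, ..., 4095` for each element, in which the kernel computes
products quickly.
-/

namespace Vale.Agent.P258.Second

/-- Products in the field with eight elements, as a table. -/
def fmN (a b : ℕ) : ℕ :=
  Nat.land (Nat.shiftRight 2821848294356612419217921029917578219971947684264937521152 (Nat.mul 3 (Nat.add (Nat.mul 8 a) b))) 7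

theorem fmN_lt (a b : ℕ) : fmN a b < 8 := by
  have h : fmN a b ≤ 7 := Nat.and_le_right
  omega

/-- The field with eight elements. -/
structure F8 where
  val : ℕ
  lt : val < 8

namespace F8

@[ext] theorem ext' {a b : F8} (h : a.val = b.val) : a = b := by
  cases a; cases b; simp_all

def ofFin (a : Fin 8) : F8 := ⟨a.val, a.isLt⟩

def toFin (a : F8) : Fin 8 := ⟨a.val, a.lt⟩

def equivFin : F8 ≃ Fin 8 := ⟨toFin, ofFin, fun _ => rfl, fun _ => rfl⟩

instance : DecidableEq F8 := fun a b => decidable_of_iff (a.val = b.val) ⟨ext', fun h => by rw [h]⟩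

instance : Fintype F8 := Fintype.ofEquiv (Fin 8) equivFin.symm

theorem forall_iff {p : F8 → Prop} : (∀ a, p a) ↔ ∀ a : Fin 8, p (ofFin a) :=
  ⟨fun h a => h _, fun h a => h a.toFin⟩

instance : Zero F8 := ⟨⟨0, by decide⟩⟩
instance : One F8 := ⟨⟨1, by decide⟩⟩
instance : Add F8 := ⟨fun a b => ⟨Nat.xor a.val b.val, Nat.xor_lt_two_pow (n := 3) a.lt b.lt⟩⟩
instance : Neg F8 := ⟨fun a => a⟩
instance : Mul F8 := ⟨fun a b => ⟨fmN a.val b.val, fmN_lt _ _⟩⟩

theorem add_val (a b : F8) : (a + b).val = Nat.xor a.val b.val := rfl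
theorem mul_val (a b : F8) : (a * b).val = fmN a.val b.val := rfl
theorem neg_eq (a : F8) : -a = a := rfl
theorem zero_val : (0 : F8).val = 0 := rfl
theorem one_val : (1 : F8).val = 1 := rfl

theorem add_assoc' : ∀ a b c : Fin 8, ofFin a + ofFin b + ofFin c = ofFin a + (ofFin b + ofFin c) := by
  decide +kernel
theorem mul_assoc' : ∀ a b c : Fin 8, ofFin a * ofFin b * ofFin c = ofFin a * (ofFin b * ofFin c) := by
  decide +kernel
theorem left_distrib' : ∀ a b c : Fin 8,
    ofFin a * (ofFin b + ofFin c) = ofFin a * ofFin b + ofFin a * ofFin c := by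
  decide +kernel
theorem add_comm' : ∀ a b : Fin 8, ofFin a + ofFin b = ofFin b + ofFin a := by decide +kernel
theorem mul_comm' : ∀ a b : Fin 8, ofFin a * ofFin b = ofFin b * ofFin a := by decide +kernel
theorem zero_add' : ∀ a : Fin 8, 0 + ofFin a = ofFin a := by decide +kernel
theorem one_mul' : ∀ a : Fin 8, 1 * ofFin a = ofFin a := by decide +kernel
theorem neg_add' : ∀ a : Fin 8, -ofFin a + ofFin a = 0 := by decide +kernel
theorem zero_mul' : ∀ a : Fin 8, 0 * ofFin a = 0 := by decide +kernel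

instance : CommRing F8 where
  add_assoc a b c := add_assoc' a.toFin b.toFin c.toFin
  zero_add a := zero_add' a.toFin
  add_zero a := (add_comm' a.toFin 0).trans (zero_add' a.toFin)
  add_comm a b := add_comm' a.toFin b.toFin
  left_distrib a b c := left_distrib' a.toFin b.toFin c.toFin
  right_distrib a b c := by
    have h1 : (a + b) * c = c * (a + b) := mul_comm' (a + b).toFin c.toFin
    have h2 : a * c = c * a := mul_comm' a.toFin c.toFin
    have h3 : b * c = c * b := mul_comm' b.toFin c.toFin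
    rw [h1, h2, h3]
    exact left_distrib' c.toFin a.toFin b.toFin
  zero_mul a := zero_mul' a.toFin
  mul_zero a := (mul_comm' a.toFin 0).trans (zero_mul' a.toFin)
  mul_assoc a b c := mul_assoc' a.toFin b.toFin c.toFin
  one_mul a := one_mul' a.toFin
  mul_one a := (mul_comm' a.toFin 1).trans (one_mul' a.toFin)
  neg_add_cancel a := neg_add' a.toFin
  mul_comm a b := mul_comm' a.toFin b.toFin
  nsmul := nsmulRec
  zsmul := zsmulRec
  npow := npowRec

end F8

/-- The group `SL(2, 8)`. -/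
abbrev G := Matrix.SpecialLinearGroup (Fin 2) F8

/-- The number with the octal digits `d, c, b, a`. -/
def cd (a b c d : ℕ) : ℕ :=
  Nat.add (Nat.add a (Nat.mul 8 b)) (Nat.add (Nat.mul 64 c) (Nat.mul 512 d))

def mulA (a b c d e f g h : ℕ) : ℕ :=
  cd (Nat.xor (fmN a e) (fmN b g)) (Nat.xor (fmN a f) (fmN b h))
    (Nat.xor (fmN c e) (fmN d g)) (Nat.xor (fmN c f) (fmN d h))

def mulN (x y : ℕ) : ℕ :=
  mulA (Nat.land x 7) (Nat.land (Nat.shiftRight x 3) 7) (Nat.land (Nat.shiftRight x 6) 7)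
    (Nat.shiftRight x 9) (Nat.land y 7) (Nat.land (Nat.shiftRight y 3) 7)
    (Nat.land (Nat.shiftRight y 6) 7) (Nat.shiftRight y 9)

def invN (x : ℕ) : ℕ :=
  Nat.add (Nat.add (Nat.shiftRight x 9) (Nat.land x 504)) (Nat.mul 512 (Nat.land x 7))

def cjN (x k : ℕ) : ℕ := mulN (mulN (invN k) x) k

def ciN (x k : ℕ) : ℕ := mulN (mulN k x) (invN k)

def force {α : Type} (n : ℕ) (f : ℕ → α) : α :=
  Nat.rec (motive := fun _ => α) (f 0) (fun m _ => f (Nat.succ m)) n

theorem force_eq {α : Type} (n : ℕ) (f : ℕ → α) : force n f = f n := by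
  cases n <;> rfl

def fsi (a : ℕ) : ℕ := Nat.land (Nat.shiftRight 6248648 (Nat.mul 3 a)) 7

def wsc (s a b c d : ℕ) : ℕ := cd (fmN s a) (fmN s b) (fmN s c) (fmN s d)

def wA (a b c d : ℕ) : ℕ :=
  cond (Nat.beq b 0) (cond (Nat.beq c 0) (wsc (fsi (Nat.xor a d)) 1 1 a d) (wsc (fsi c) 0 1 c d))
    (wsc (fsi b) 1 0 a b)

/-- The code of a matrix conjugating the given one to the companion matrix. -/
def wN (x : ℕ) : ℕ :=
  wA (Nat.land x 7) (Nat.land (Nat.shiftRight x 3) 7) (Nat.land (Nat.shiftRight x 6) 7)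
    (Nat.shiftRight x 9)

def inv13 (x : ℕ) : ℕ :=
  force (invN x) fun u => force (mulN u u) fun u2 => force (mulN u2 u2) fun u4 =>
    mulN (mulN (mulN u4 u4) u4) u

/-- The codes of the elements of trace `t`. -/
def cl (t : ℕ) : List ℕ :=
  ([[], [73, 169, 241, 313, 337, 409, 481, 584, 680, 752, 824, 848, 920, 992, 1147, 1203, 1251,
    1307, 1387, 1427, 1483, 1658, 1714, 1762, 1818, 1898, 1938, 1994, 2141, 2213, 2253, 2325,
    2421, 2477, 2557, 2652, 2724, 2764, 2836, 2932, 2988, 3068, 3183, 3263, 3295, 3383, 3407,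
    3495, 3543, 3694, 3774, 3806, 3894, 3918, 4006, 4054],     [74, 170, 242, 314, 338, 410, 482,
    595, 651, 763, 811, 867, 947, 987, 1096, 1192, 1264, 1336, 1360, 1432, 1504, 1617, 1673, 1785,
    1833, 1889, 1969, 2009, 2150, 2198, 2286, 2318, 2398, 2494, 2550, 2687, 2743, 2791, 2847,
    2927, 2967, 3023, 3172, 3220, 3308, 3340, 3420, 3516, 3572, 3709, 3765, 3813, 3869, 3949,
    3989, 4045],     [75, 171, 243, 315, 339, 411, 483, 602, 674, 714, 786, 882, 938, 1018, 1113,
    1185, 1225, 1297, 1393, 1449, 1529, 1608, 1704, 1776, 1848, 1872, 1944, 2016, 2055, 2063,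
    2071, 2079, 2087, 2095, 2103, 2111, 2119, 2183, 2247, 2311, 2375, 2439, 2503, 2646, 2702,
    2814, 2862, 2918, 2998, 3038, 3157, 3213, 3325, 3373, 3429, 3509, 3549, 3588, 3596, 3604,
    3612, 3620, 3628, 3636, 3644, 3652, 3716, 3780, 3844, 3908, 3972, 4036],     [76, 172, 244,
    316, 340, 412, 484, 613, 661, 749, 781, 861, 957, 1013, 1142, 1182, 1238, 1318, 1406, 1422,
    1518, 1631, 1703, 1743, 1815, 1911, 1967, 2047, 2120, 2216, 2288, 2360, 2384, 2456, 2528,
    2657, 2705, 2793, 2825, 2905, 3001, 3057, 3186, 3226, 3282, 3362, 3450, 3466, 3562, 3675,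
    3747, 3787, 3859, 3955, 4011, 4091],     [77, 173, 245, 317, 341, 413, 485, 620, 700, 732,
    820, 844, 932, 980, 1127, 1175, 1263, 1295, 1375, 1471, 1527, 1542, 1550, 1558, 1566, 1574,
    1582, 1590, 1598, 1606, 1670, 1734, 1798, 1862, 1926, 1990, 2153, 2233, 2265, 2353, 2377,
    2465, 2513, 2632, 2728, 2800, 2872, 2896, 2968, 3040, 3075, 3083, 3091, 3099, 3107, 3115,
    3123, 3131, 3139, 3203, 3267, 3331, 3395, 3459, 3523, 3682, 3730, 3818, 3850, 3930, 4026,
    4082],     [78, 174, 246, 318, 342, 414, 486, 631, 671, 727, 807, 895, 911, 1007, 1108, 1164,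
    1276, 1324, 1380, 1460, 1500, 1645, 1725, 1757, 1845, 1869, 1957, 2005, 2130, 2186, 2298,
    2346, 2402, 2482, 2522, 2667, 2747, 2779, 2867, 2891, 2979, 3027, 3144, 3240, 3312, 3384,
    3408, 3480, 3552, 3697, 3737, 3793, 3873, 3961, 3977, 4073],     [79, 175, 247, 319, 343, 415,
    487, 638, 694, 742, 798, 878, 918, 974, 1029, 1037, 1045, 1053, 1061, 1069, 1077, 1085, 1093,
    1157, 1221, 1285, 1349, 1413, 1477, 1652, 1692, 1748, 1828, 1916, 1932, 2028, 2163, 2203,
    2259, 2339, 2427, 2443, 2539, 2562, 2570, 2578, 2586, 2594, 2602, 2610, 2618, 2626, 2690,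
    2754, 2818, 2882, 2946, 3010, 3193, 3249, 3297, 3353, 3433, 3473, 3529, 3656, 3752, 3824,
    3896, 3920, 3992, 4064]] : List (List ℕ)).getD t []

/-- The codes of the elements commuting with the companion matrix of trace `t`. -/
def cen (t : ℕ) : List ℕ :=
  ([[], [73, 513, 584, 1318, 1460, 2198, 2482, 3220, 3362],     [74, 513, 661, 1096, 1387, 1757,
    1898, 2705, 2779],     [75, 513, 732, 1608, 1828, 2265, 2339],     [76, 513, 807, 2120, 2557,
    2927, 3068, 3873, 3949],     [77, 513, 878, 2632, 2998, 3433, 3509],     [78, 513, 947, 1969,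
    2047, 3144, 3295, 3806, 4091],     [79, 513, 1018, 1175, 1529, 3656, 3730]] : List (List
    ℕ)).getD t []

end Vale.Agent.P258.Second
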