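import Vale.Agent.P258.Defs

/-!
A second pattern: a link `K ∪ E` in which `K` is a Montesinos knot bounding a surface of genus two
in the complement of `E`, and `E` goes around one band of that surface.
-/

namespace Vale.Agent.P258

/-- The second pattern: a diagram with 33 crossings of a link `K ∪ E`, in which `K` has the arcs
`0, ..., 30` and `E` the arcs `31, 32`. -/
def patternB : Diagram where
  n := 33
  next a := Fin.ofNat 33 (if a.val = 30 then 0 else if a.val = 32 then 31 else a.val + 1)
  above a := Fin.ofNat 33
    ([26, 25, 31, 11, 10, 9, 8, 29, 6, 5, 4, 3, 22, 21, 20, 19, 18, 0, 16, 15, 14, 13, 12, 31, 2,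
      1, 0, 7, 8, 7, 17, 24, 2].getD a.val 0)
  sgn a := if a.val ∈ [0, 1, 2, 7, 24, 25, 26, 28, 29, 32] then -1 else 1

/-- An arc of the component `K` of the second pattern. -/
def patternBK : Fin patternB.n := Fin.ofNat 33 0

/-- An arc of the component `E` of the second pattern. -/
def patternBE : Fin patternB.n := Fin.ofNat 33 31

end Vale.Agent.P258
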